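import Vale.Agent.P232.Gap.KinkSplit.Check
import Vale.Agent.P232.Gap.KinkBand.Check
import Vale.Agent.P232.Gap.Kink

/-!
# P232 gap, kink split: from the limit data to the calibrations

In a band `H ∈ [H0, H1]` two large constants exceed `z` (an extra tree of the band checker), the
chord of the concave `T` bounds the two far areas linearly in the constants, hence by `Sb`, and
`a1`, `b0` bracket the end areas of the direction of the small constant.
-/

open MeasureTheory Set Filter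
open scoped Real Topology

noncomputable section

namespace Vale.Agent.P232.Gap.KinkSplit

/-- Upper bound for `1/π`. -/
abbrev QU : ℤ := 318310

/-- A lower value of `T(A)` for slopes up to `H1`. -/
def tI (H1 A : ℤ) : ℤ := min (min (rI A) U) (rC A) - cd (H1 * A) U

/-- The witnesses in `tI` are valid. -/
def tOK (A : ℤ) : Bool :=
  decide (0 ≤ A) && decide (A ≤ U) && decide (0 ≤ rI A) &&
    decide (rI A * rI A ≤ PL * A) && decide (0 ≤ rC A) &&
      decide (rC A * rC A ≤ PL * (U - A))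

/-- A range of the small constant. -/
structure Cell where
  /-- upper end -/
  C1 : ℤ
  /-- left end of the chord -/
  A1 : ℤ
  /-- right end of the chord -/
  A2 : ℤ
  /-- bound of the small far area -/
  a1 : ℤ
  /-- bound of the large near area -/
  b0 : ℤ
  /-- calibrations by the near area -/
  segs : List Leaf

/-- The bound of the two far areas. -/
def sumBound (H0 H1 C0 : ℤ) (c : Cell) : ℤ :=
  2 * c.A1 + cd ((c.A2 - c.A1) * (2 * U - 3 * (H0 * QL / U) - C0 - 2 * tI H1 c.A1))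
    (tI H1 c.A2 - tI H1 c.A1)

/-- The check of a cell. -/
def cellB (H0 H1 z C0 : ℤ) (c : Cell) : Bool :=
  tOK c.A1 && tOK c.A2 && tOK c.a1 && tOK c.b0 && decide (c.A1 < c.A2) && decide (c.A2 ≤ QL) &&
    decide (tI H1 c.A1 ≤ z) && decide (tI H1 c.A1 < tI H1 c.A2) &&
    decide (2 * U - 3 * (H0 * QL / U) - C0 - z < tI H1 c.A2) &&
    decide (c.a1 ≤ QL) && decide (c.C1 < tI H1 c.a1) && decide (QU ≤ c.b0) &&
    decide (c.C1 < tI H1 c.b0) && !c.segs.isEmpty &&
    chainB c.a1 (sumBound H0 H1 C0 c) c.b0 c.segs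

/-- The cells cover the small constants. -/
def cellsB (H0 H1 z : ℤ) : ℤ → List Cell → Bool
  | C0, [] => decide (C0 = 32000)
  | C0, c :: r => cellB H0 H1 z C0 c && cellsB H0 H1 z c.C1 r

/-- A band of slopes. -/
structure Band where
  /-- upper end -/
  H1 : ℤ
  /-- lower bound for the large constants -/
  z : ℤ
  /-- the certificate of `z` -/
  cut : KinkBand.Tree
  /-- the cells -/
  cells : List Cell

/-- The check of a band. -/
def bandB (H0 : ℤ) (B : Band) : Bool :=
  decide (0 < H0) && decide (H0 ≤ B.H1) && decide (B.z * U + B.H1 * QU < U * U) &&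
    decide (U * U < B.z * U + 2 * H0 * QL) &&
    (decide (B.z ≤ 320000) || KinkBand.okTree B.cut ⟨H0, B.H1, 320000, B.z⟩) &&
    cellsB H0 B.H1 B.z 0 B.cells

/-- The bands cover the slopes. -/
def bandsB : ℤ → List Band → Bool
  | H0, [] => decide (H0 = 1432000)
  | H0, B :: r => bandB H0 B && bandsB B.H1 r

lemma QU_ge : 1 / π ≤ re QU := by
  rw [re, div_le_iff₀ Real.pi_pos]
  have := Real.pi_gt_d20
  push_cast
  linarith

lemma re_eq (x : ℤ) : KinkBand.re x = re x := rfl

lemma tI_le {H : ℝ} {h1 A : ℤ} (hA : tOK A = true) (hH : H ≤ re h1) :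
    re (tI h1 A) ≤ lmin (re A) - H * re A := by
  simp only [tOK, Bool.and_eq_true, decide_eq_true_eq] at hA
  obtain ⟨⟨⟨⟨⟨a0, -⟩, r0⟩, r1⟩, q0⟩, q1⟩ := hA
  have hl : re (min (min (rI A) U) (rC A)) ≤ lmin (re A) := by
    refine le_min (le_min ?_ ?_) ?_
    · exact (re_le.2 ((min_le_left _ _).trans (min_le_left _ _))).trans (rI_le r0 r1)
    · exact (re_le.2 ((min_le_left _ _).trans (min_le_right _ _))).trans_eq (by norm_num [re])
    · exact (re_le.2 (min_le_right _ _)).trans (rC_le q0 q1)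
  have hc : re h1 * re A ≤ re (cd (h1 * A) U) := by
    have h := le_cd_mul (h1 * A) (b := U) (by norm_num)
    have h' := re_mul_le h
    have e : re U = 1 := by norm_num [re]
    rwa [e, mul_one] at h'
  have e : re (tI h1 A) = re (min (min (rI A) U) (rC A)) - re (cd (h1 * A) U) := by
    simp only [tI, re]; push_cast; ring
  have := mul_le_mul_of_nonneg_right hH (re_nonneg a0)
  linarith

lemma floor_le {H0 : ℤ} {H : ℝ} (h0 : 0 ≤ H0) (hH : re H0 ≤ H) :
    re (H0 * QL / U) ≤ H / π := by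
  have h : H0 * QL / U * U ≤ H0 * QL := Int.ediv_mul_le _ (by norm_num)
  have h' := re_mul_le h
  have e : re U = 1 := by norm_num [re]
  rw [e, mul_one] at h'
  refine h'.trans ((mul_le_mul hH QL_le (re_nonneg (by norm_num)) ((re_nonneg h0).trans hH)).trans_eq ?_)
  ring

variable {H p : ℝ}

/-- `T` stays above `C` on a segment with both ends above. -/
lemma lt_T {C x y z : ℝ} (hx : 0 ≤ x) (hy : y ≤ 1) (hz : z ∈ Icc x y)
    (h1 : C < lmin x - H * x) (h2 : C < lmin y - H * y) : C < lmin z - H * z := by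
  have h := (concaveOn_T H).ge_on_segment (x := x) (y := y) (z := z)
    ⟨hx, (hz.1.trans hz.2).trans hy⟩ ⟨hx.trans (hz.1.trans hz.2), hy⟩
    (by rw [segment_eq_Icc (hz.1.trans hz.2)]; exact hz)
  exact (lt_min h1 h2).trans_le h

/-- The chord bounds the far area linearly in the constant. -/
lemma alpha_chord {C α A1 A2 t1 t2 : ℝ} (h0 : 0 ≤ A1) (h12 : A1 < A2) (h2V : A2 ≤ 1 / π)
    (hαV : α ≤ 1 / π) (e1 : t1 ≤ lmin A1 - H * A1) (e2 : t2 ≤ lmin A2 - H * A2) (ht : t1 < t2)
    (hC1 : t1 ≤ C) (hC2 : C < t2) (hCV : C < lmin (1 / π) - H * (1 / π))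
    (hα : lmin α - H * α ≤ C) : α ≤ A1 + (C - t1) * ((A2 - A1) / (t2 - t1)) := by
  have hk : 0 ≤ (A2 - A1) / (t2 - t1) := div_nonneg (by linarith) (by linarith)
  have hV1 : (1 : ℝ) / π ≤ 1 := by rw [div_le_one Real.pi_pos]; linarith [Real.pi_gt_three]
  rcases le_total α A1 with h | h
  · nlinarith [mul_nonneg (sub_nonneg.2 hC1) hk]
  by_cases h' : α ≤ A2
  swap
  · exact absurd hα (not_le.2 (lt_T (h0.trans h12.le) hV1 ⟨(not_le.1 h').le, hαV⟩
      (hC2.trans_le e2) hCV))
  set r := (α - A1) / (A2 - A1) with hr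
  have hd : 0 < A2 - A1 := sub_pos.2 h12
  have r0 : 0 ≤ r := div_nonneg (sub_nonneg.2 h) hd.le
  have r1 : r ≤ 1 := (div_le_one hd).2 (by linarith)
  have hc := (concaveOn_T H).2 (x := A1) ⟨h0, (h12.le.trans h2V).trans hV1⟩ (y := A2)
    ⟨h0.trans h12.le, h2V.trans hV1⟩ (sub_nonneg.2 r1) r0 (by ring)
  simp only [smul_eq_mul] at hc
  rw [show (1 - r) * A1 + r * A2 = α by rw [hr]; field_simp; ring] at hc
  have h3 : t1 + r * (t2 - t1) ≤ C := by
    have := mul_le_mul_of_nonneg_left e1 (sub_nonneg.2 r1)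
    have := mul_le_mul_of_nonneg_left e2 r0
    linarith
  have h4 : r * (t2 - t1) * ((A2 - A1) / (t2 - t1)) = α - A1 := by
    have : t2 - t1 ≠ 0 := (sub_pos.2 ht).ne'
    rw [hr]; field_simp
  nlinarith [mul_le_mul_of_nonneg_right h3 hk]

lemma sum_three (f : Fin 3 → ℝ) {i j k : Fin 3} (hij : i ≠ j) (hki : k ≠ i) (hkj : k ≠ j) :
    ∑ d, f d = f i + f j + f k := by
  rw [Fin.sum_univ_three]
  fin_cases i <;> fin_cases j <;> fin_cases k <;> simp_all <;> ring

/-- Above the cut. -/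
lemma cut_lt {H0 : ℤ} {B : Band} (hB : bandB H0 B = true) (h0 : re H0 ≤ H) (h1 : H ≤ re B.H1)
    (G : GapData (1 / π) H p) (hp : p ≤ 1) {d : Fin 3} (hd : 8 / 25 ≤ G.C d) :
    re B.z ≤ G.C d := by
  simp only [bandB, Bool.and_eq_true, Bool.or_eq_true, decide_eq_true_eq] at hB
  obtain ⟨⟨⟨⟨⟨hH0, -⟩, hz1⟩, -⟩, hcut⟩, -⟩ := hB
  rcases hcut with hz | htree
  · exact (re_le.2 hz).trans (le_trans (by norm_num [re]) hd)
  by_contra hlt
  push Not at hlt
  have hH : 0 < H := (div_pos (Int.cast_pos.2 hH0) (by norm_num : (0 : ℝ) < 1000000)).trans_le h0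
  have hW : (1 : ℝ) / π ≤ 1 := by rw [div_le_one Real.pi_pos]; linarith [Real.pi_gt_three]
  have e : H * (1 / π) = H / π := by ring
  have hzV : G.C d < 1 - H / π := by
    have h' : ((B.z * U + B.H1 * QU : ℤ) : ℝ) < ((U * U : ℤ) : ℝ) := Int.cast_lt.2 hz1
    push_cast at h'
    have : H / π ≤ re B.H1 * re QU := by
      rw [← e]
      exact mul_le_mul h1 QU_ge (by positivity) (hH.le.trans h1)
    simp only [re] at this hlt
    push_cast at this
    linarith
  have hc := G.calib d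
  rw [G.window (by positivity) hW (by rw [lmin_inv_pi, e]; exact hzV), e] at hc
  have := KinkBand.okTree_sound_lt _ _ htree H (G.C d) hH ⟨h0, h1⟩
    ⟨le_trans (by norm_num [KinkBand.re]) hd, hlt.le⟩
  linarith

/-- **A checked band.** -/
theorem band_sound {H0 : ℤ} {B : Band} (hB : bandB H0 B = true) (h0 : re H0 ≤ H)
    (h1 : H ≤ re B.H1) (G : GapData (1 / π) H p) {i j k : Fin 3} (hij : i ≠ j) (hki : k ≠ i)
    (hkj : k ≠ j) (hi : G.C i ≤ 4 / 125) (hj : 8 / 25 ≤ G.C j) (hk : 8 / 25 ≤ G.C k) : 1 < p := by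
  by_contra hp
  push Not at hp
  have zj := cut_lt hB h0 h1 G hp hj
  have zk := cut_lt hB h0 h1 G hp hk
  simp only [bandB, Bool.and_eq_true, Bool.or_eq_true, decide_eq_true_eq] at hB
  obtain ⟨⟨⟨⟨⟨hH0, -⟩, -⟩, hz2⟩, -⟩, hcells⟩ := hB
  have hH : 0 < H := (div_pos (Int.cast_pos.2 hH0) (by norm_num : (0 : ℝ) < 1000000)).trans_le h0
  have hsum : G.C i + G.C j + G.C k ≤ 2 - 3 * (H / π) := by
    rw [← sum_three G.C hij hki hkj, G.sum_C]
    have : H * (1 / π) = H / π := by ring
    linarith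
  have hzH : 1 - 2 * (H / π) < re B.z := by
    have h' : ((U * U : ℤ) : ℝ) < ((B.z * U + 2 * H0 * QL : ℤ) : ℝ) := Int.cast_lt.2 hz2
    push_cast at h'
    have : re H0 * re QL ≤ H / π := by
      rw [div_eq_mul_one_div]
      exact mul_le_mul h0 QL_le (re_nonneg (by norm_num)) hH.le
    simp only [re] at this ⊢
    push_cast at this
    linarith
  have hTV : lmin (1 / π) - H * (1 / π) = 1 - H / π := by rw [lmin_inv_pi]; ring
  have hW : (1 : ℝ) / π ≤ 1 := by rw [div_le_one Real.pi_pos]; linarith [Real.pi_gt_three]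
  have hC0 := G.C_nonneg i
  suffices key : ∀ (l : List Cell) (C0 : ℤ), cellsB H0 B.H1 B.z C0 l = true →
      re C0 ≤ G.C i → (l = [] → re C0 < G.C i) → False by
    refine key _ 0 hcells (by simpa [re] using hC0) fun hnil => ?_
    rw [hnil] at hcells
    simp [cellsB] at hcells
  intro l
  induction l with
  | nil =>
    intro C0 h hle hlt
    simp only [cellsB, decide_eq_true_eq] at h
    have := hlt rfl
    rw [h, show re 32000 = 4 / 125 by norm_num [re]] at this
    linarith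
  | cons c r ih =>
    intro C0 h hle _
    simp only [cellsB, Bool.and_eq_true] at h
    by_cases hC1 : re c.C1 < G.C i
    · exact ih c.C1 h.2 hC1.le fun _ => hC1
    push Not at hC1
    have hc := h.1
    simp only [cellB, Bool.and_eq_true, decide_eq_true_eq, Bool.not_eq_true'] at hc
    obtain ⟨⟨⟨⟨⟨⟨⟨⟨⟨⟨⟨⟨⟨⟨o1, o2⟩, o3⟩, o4⟩, hA12⟩, hA2⟩, ht1⟩, ht12⟩, hw⟩, ha1⟩, hCa⟩, hb0⟩,
      hCb⟩, hne⟩, hch⟩ := hc
    obtain ⟨δ, hδ, κ, hκ, hbound⟩ := chain_sound c.a1 (sumBound H0 B.H1 C0 c) c.segs c.b0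
      (by intro e; simp [e] at hne) hch
    have hA1 : 0 ≤ c.A1 := by
      simp only [tOK, Bool.and_eq_true, decide_eq_true_eq] at o1
      exact o1.1.1.1.1.1
    have hb1 : re c.b0 ≤ 1 := by
      simp only [tOK, Bool.and_eq_true, decide_eq_true_eq] at o4
      exact (re_le.2 o4.1.1.1.1.2).trans_eq (by norm_num [re])
    have ha0 : 0 ≤ re c.a1 := by
      simp only [tOK, Bool.and_eq_true, decide_eq_true_eq] at o3
      exact re_nonneg o3.1.1.1.1.1
    have e1 := tI_le (H := H) o1 h1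
    have e2 := tI_le (H := H) o2 h1
    set t1 := re (tI B.H1 c.A1)
    set t2 := re (tI B.H1 c.A2)
    have hfl := floor_le hH0.le h0
    have hSC : G.C j + G.C k ≤ re (2 * U - 3 * (H0 * QL / U) - C0) := by
      have e : re (2 * U - 3 * (H0 * QL / U) - C0) = 2 - 3 * re (H0 * QL / U) - re C0 := by
        simp only [re]; push_cast; ring
      rw [e]
      linarith
    have hwt : re (2 * U - 3 * (H0 * QL / U) - C0) - re B.z < t2 := by
      have := re_lt.2 hw
      simp only [re] at this ⊢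
      push_cast at this ⊢
      simp only [t2, re]
      linarith
    have hz1 : t1 ≤ re B.z := re_le.2 ht1
    have hαd : ∀ d, re B.z ≤ G.C d → G.C d ≤ re (2 * U - 3 * (H0 * QL / U) - C0) - re B.z →
        G.C d ≤ 2 - 3 * (H / π) - re B.z →
        G.α d ≤ re c.A1 + (G.C d - t1) * ((re c.A2 - re c.A1) / (t2 - t1)) := fun d d1 d2 d3 =>
      alpha_chord (re_nonneg hA1) (re_lt.2 hA12) ((re_le.2 hA2).trans QL_le) (G.α_le d) e1 e2
        (re_lt.2 ht12) (hz1.trans d1) (d2.trans_lt hwt) (by rw [hTV]; linarith) (G.end_α d)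
    have aj := hαd j zj (by linarith) (by linarith)
    have ak := hαd k zk (by linarith) (by linarith)
    have hS : G.α j + G.α k ≤ re (sumBound H0 B.H1 C0 c) := by
      set N := (c.A2 - c.A1) * (2 * U - 3 * (H0 * QL / U) - C0 - 2 * tI B.H1 c.A1)
      set q := cd N (tI B.H1 c.A2 - tI B.H1 c.A1)
      have hq : N ≤ q * (tI B.H1 c.A2 - tI B.H1 c.A1) := le_cd_mul _ (sub_pos.2 ht12)
      have hq' : (N : ℝ) ≤ ((q * (tI B.H1 c.A2 - tI B.H1 c.A1) : ℤ) : ℝ) := Int.cast_le.2 hq
      have hd : 0 < t2 - t1 := sub_pos.2 (re_lt.2 ht12)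
      have e : re (sumBound H0 B.H1 C0 c) = 2 * re c.A1 + re q := by
        simp only [sumBound, re, q, N]; push_cast; ring
      rw [e]
      have hA : 0 ≤ re c.A2 - re c.A1 := (sub_pos.2 (re_lt.2 hA12)).le
      have h5 : (re c.A2 - re c.A1) * (re (2 * U - 3 * (H0 * QL / U) - C0) - 2 * t1) ≤
          re q * (t2 - t1) := by
        simp only [N, t1, t2, re] at hq' ⊢
        push_cast at hq' ⊢
        linarith
      have h6 : (G.C j + G.C k - 2 * t1) * ((re c.A2 - re c.A1) / (t2 - t1)) ≤ re q := by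
        rw [← mul_div_assoc, div_le_iff₀ hd]
        refine le_trans ?_ h5
        rw [mul_comm]
        exact mul_le_mul_of_nonneg_left (by linarith) hA
      linarith
    have hαi : G.α i < re c.a1 := by
      by_contra hcon
      push Not at hcon
      refine absurd (G.end_α i) (not_le.2 (lt_T ha0 hW ⟨hcon, G.α_le i⟩ ?_ ?_))
      · exact (hC1.trans_lt (re_lt.2 hCa)).trans_le (tI_le (H := H) o3 h1)
      · rw [hTV]; linarith
    have hβi : re c.b0 < G.β i := by
      by_contra hcon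
      push Not at hcon
      refine absurd (G.end_β i) (not_le.2 (lt_T (by positivity) hb1 ⟨G.le_β i, hcon⟩ ?_ ?_))
      · rw [hTV]; linarith
      · exact (hC1.trans_lt (re_lt.2 hCb)).trans_le (tI_le (H := H) o4 h1)
    set η := min (min (re c.a1 - G.α i) (G.β i - re c.b0)) (δ / (2 * (2 * κ + 1))) with hη
    have hη0 : 0 < η := lt_min (lt_min (sub_pos.2 hαi) (sub_pos.2 hβi)) (by positivity)
    obtain ⟨D, M, hD, hvol, hM, hends⟩ := G.sets η hη0
    have hlim : ∀ a b : Fin 3, ∃ x y : ℝ, Tendsto (sliceArea D a b) (𝓝[<] 1) (𝓝 x) ∧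
        Tendsto (sliceArea D a b) (𝓝[>] 0) (𝓝 y) := fun a b =>
      ⟨_, _, ((antitone_sliceArea hD.down).antitoneOn _).tendsto_nhdsWithin_Ioo_left
        (nonempty_Ioo.2 zero_lt_one) ⟨0, by rintro _ ⟨c, -, rfl⟩; exact (sliceArea_mem hD.down c).1⟩,
        ((antitone_sliceArea hD.down).antitoneOn _).tendsto_nhdsWithin_Ioo_right
        (nonempty_Ioo.2 zero_lt_one) ⟨1, by rintro _ ⟨c, -, rfl⟩; exact (sliceArea_mem hD.down c).2⟩⟩
    obtain ⟨a, b, hla, hlb⟩ := hlim j k
    obtain ⟨au, yu, hlu, hlu'⟩ := hlim i k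
    obtain ⟨aw, yw, hlw, hlw'⟩ := hlim i j
    have f1 := hends j k i hkj.symm hij hki.symm a b hla hlb
    have f2 := (hends i k j hki.symm hij.symm hkj.symm au yu hlu hlu').1
    have f3 := (hends i j k hij hki hkj aw yw hlw hlw').1
    have g1 : η ≤ re c.a1 - G.α i := (min_le_left _ _).trans (min_le_left _ _)
    have g2 : η ≤ G.β i - re c.b0 := (min_le_left _ _).trans (min_le_right _ _)
    have g3 : η * (2 * (2 * κ + 1)) ≤ δ :=
      (le_div_iff₀ (by positivity)).1 (min_le_right _ _)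
    have hV := (abs_lt.1 hvol).1
    have := hbound (2 * η) (by positivity) D M hD j k i hkj.symm hij hki.symm a b au aw hla hlb hlu
      hlw (by linarith) (by linarith [QL_le]) (by linarith [f1.1]) (by linarith [f1.2])
    nlinarith

/-- **Checked bands.** -/
theorem bands_sound : ∀ (l : List Band) (H0 : ℤ), l ≠ [] → bandsB H0 l = true → re H0 ≤ H →
    H ≤ re 1432000 → ∀ (G : GapData (1 / π) H p) (i j k : Fin 3), i ≠ j → k ≠ i → k ≠ j →
      G.C i ≤ 4 / 125 → 8 / 25 ≤ G.C j → 8 / 25 ≤ G.C k → 1 < p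
  | [], _, h, _ => absurd rfl h
  | B :: r, H0, _, h => by
    intro h0 h1 G i j k hij hki hkj hi hj hk
    simp only [bandsB, Bool.and_eq_true] at h
    by_cases hH : H ≤ re B.H1
    · exact band_sound h.1 h0 hH G hij hki hkj hi hj hk
    rcases r with _ | ⟨B', r⟩
    · have := h.2
      simp only [bandsB, decide_eq_true_eq] at this
      rw [this] at hH
      exact absurd h1 hH
    exact bands_sound (B' :: r) B.H1 (by simp) h.2 (not_le.1 hH).le h1 G i j k hij hki hkj hi hj hk

end Vale.Agent.P232.Gap.KinkSplit
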