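import Vale.Agent.P232.Gap.KinkSplit.Planar
import Vale.Agent.P232.T1.Nodes

/-!
# P232 gap, kink split: the integer checker of one calibration

Units of `10⁻⁶`. A leaf `(b1, lam, mu, sw)` serves all end areas `a ≤ a1`, `lo ≤ b ≤ b1`. The knots
and their values are computed from it; `c²` is interpolated linearly, so the conditions are checked
at the two ends of each segment (islands; bands by `L ≤ c` or by one line `K(P) + P h`; crosses by
`L ≤ c √(π(1-t))` or by the bound of the averaged length).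
-/

open MeasureTheory Set Filter
open scoped Real Topology

noncomputable section

namespace Vale.Agent.P232.Gap.KinkSplit

open Calib (Knot Valid lerp interp lastT lastT_ge)
open T1 (cFun trapIn trapIn_le sq_disc cauchy_two valid_head)

/-- The unit. -/
abbrev U : ℤ := 1000000

/-- Lower bound for `1/π`. -/
abbrev QL : ℤ := 318309

/-- Lower bound for `π`. -/
abbrev PL : ℤ := 3141592

/-- Quotient rounded up. -/
def cd (a b : ℤ) : ℤ := -((-a) / b)

/-- Newton steps for the square root (its values are checked). -/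
def sqrtGo : ℕ → ℤ → ℤ → ℤ
  | 0, _, x => x
  | f + 1, n, x => if (x + n / x) / 2 < x then sqrtGo f n ((x + n / x) / 2) else x

/-- Integer square root of numbers up to `4·10¹²`. -/
def isq (n : ℤ) : ℤ := if n ≤ 0 then 0 else sqrtGo 50 n 2000001

/-- Square root rounded up. -/
def csq (n : ℤ) : ℤ := bif decide (n ≤ isq n * isq n) then isq n else isq n + 1

/-- A lower value of `√(π t)`. -/
def rI (t : ℤ) : ℤ := isq (PL * t)

/-- A lower value of `√(π (1 - t))`. -/
def rC (t : ℤ) : ℤ := isq (PL * (U - t))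

/-- A lower value of `K(P)`. -/
def kq (P : ℤ) : ℤ :=
  let y := cd (P * P) U
  U - cd y 6 - cd (y * y) (40 * U) - cd (y * y * y) (56 * U * U)

/-- A value of `c` at the knot `t` after the value `prev` (untrusted). -/
def node (lam mu sw t prev : ℤ) : ℤ :=
  let L := cd (lam * t) U
  let c1 := if L ≤ 0 then 0 else if 0 < rI t then cd (L * U) (rI t) else 10000000
  let p := if 0 < prev then prev else c1
  let c := if t ≤ QL then c1 else
    let f : ℤ → ℤ := fun p =>
      let P := if 0 < p then cd (mu * U) p else U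
      if P ≤ 700000 then cd ((L - mu * t / U) * U) (kq P) else 10000000
    let cb := f (min p (f p))
    max c1 (min cb L)
  let p2 := if 0 < prev then prev else c
  let cI := if L ≤ 0 then 0 else if 0 < rC t then cd (L * U) (rC t) else 10000000
  let T := max 0 (L - 2 * mu)
  let den := 2 * PL * p2 - 8 * mu * U
  let cII := if den ≤ 0 then 10000000 else if U - t ≤ 0 then (if T = 0 then p2 else 10000000) else
    csq (cd (2 * p2 * T * T * U * U / (U - t) + 1 + 8 * mu * p2 * p2 * U) den)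
  if t < sw then max c cI else if t = sw then max c (max cI cII) else max c cII

/-- Positions of the knots in their range. -/
def fracs : List ℤ := [1, 3, 6, 10, 16, 24, 34, 46, 60, 77, 96, 118, 143, 171, 202, 236, 273, 313,
  356, 400, 445, 490, 535, 580, 625, 668, 710, 750, 788, 823, 855, 883, 908, 929, 947, 962, 974,
  984, 991, 996, 1000]

/-- Ordered insertion without repetition. -/
def ins (x : ℤ) : List ℤ → List ℤ
  | [] => [x]
  | t :: l => if x < t then x :: t :: l else if x = t then t :: l else t :: ins x l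

/-- The knots of a leaf. -/
def knots (a1 lo b1 sw : ℤ) : List ℤ :=
  let base := 0 :: a1 :: fracs.map fun f => a1 + (lo - a1) * f / 1000
  let l := ins b1 base
  let l := if QL < b1 then ins QL l else l
  if sw < b1 then ins sw l else l

/-- A knot with its values. -/
structure IK where
  /-- area -/
  t : ℤ
  /-- value of `c` -/
  c : ℤ
  /-- value of `s` -/
  s : ℤ

/-- The values at the knots. -/
def build (lam mu sw : ℤ) : List ℤ → ℤ → List IK
  | [], _ => []
  | t :: l, prev =>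
    let c := node lam mu sw t prev
    ⟨t, c, isq (U * U - c * c)⟩ :: build lam mu sw l c

/-- One knot: the disc and the island. -/
def nodeB (lam : ℤ) (k : IK) : Bool :=
  decide (0 ≤ k.t) && decide (k.t ≤ U) && decide (0 ≤ k.c) && decide (0 ≤ k.s) &&
    decide (k.c * k.c + k.s * k.s ≤ U * U) && decide (0 ≤ rI k.t) &&
    decide (rI k.t * rI k.t ≤ PL * k.t) && decide (lam * k.t ≤ k.c * rI k.t)

/-- Bands by `L ≤ c`. -/
def bandLB (lam : ℤ) (k k' : IK) : Bool :=
  decide (lam * k.t ≤ k.c * U) && decide (lam * k'.t ≤ k'.c * U)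

/-- Bands by one line. -/
def bandKB (lam mu : ℤ) (k k' : IK) : Bool :=
  let m := min k.c k'.c
  let P := cd (mu * U) m
  let K := kq P
  decide (0 ≤ P) && decide (P ≤ 700000) && decide (mu * U ≤ P * m) &&
    decide (lam * k.t - mu * k.t ≤ k.c * K) && decide (lam * k'.t - mu * k'.t ≤ k'.c * K)

/-- Crosses without their wrap. -/
def crossI1 (lam : ℤ) (k : IK) : Bool :=
  decide (0 ≤ rC k.t) && decide (rC k.t * rC k.t ≤ PL * (U - k.t)) &&
    decide (lam * k.t ≤ k.c * rC k.t)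

/-- Crosses by the averaged bound, `p` the point of tangency. -/
def crossII1 (lam mu p : ℤ) (k : IK) : Bool :=
  let F := k.c * k.c * (2 * PL * p - 8 * mu * U) - 8 * mu * U * (p * p)
  let T := max 0 (lam * k.t - 2 * mu * U)
  decide (0 ≤ F) && decide (2 * p * (T * T) ≤ (U - k.t) * F)

/-- The conditions on a segment. -/
def segB (lam mu : ℤ) (k k' : IK) : Bool :=
  (decide (k'.t ≤ QL) || bandLB lam k k' || bandKB lam mu k k') &&
    ((crossI1 lam k && crossI1 lam k') ||
      (decide (0 < k.c) && crossII1 lam mu k.c k && crossII1 lam mu k.c k'))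

/-- All conditions. -/
def listB (lam mu : ℤ) : List IK → Bool
  | [] => true
  | [k] => nodeB lam k
  | k :: k' :: r =>
    nodeB lam k && decide (k.t < k'.t) && segB lam mu k k' && listB lam mu (k' :: r)

/-- Twice the trapezoids inside `[lo, hi]`. -/
def trap2 (lo hi : ℤ) : List IK → ℤ
  | [] => 0
  | [_] => 0
  | k :: k' :: r =>
    (if lo ≤ k.t ∧ k'.t ≤ hi then (k'.t - k.t) * (k.s + k'.s) else 0) + trap2 lo hi (k' :: r)

/-- The last knot. -/
def lastI : IK → List IK → ℤ
  | k, [] => k.t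
  | _, k' :: r => lastI k' r

/-- A calibration. -/
structure Leaf where
  /-- upper end of the range of `b` -/
  b1 : ℤ
  /-- multiplier of the area -/
  lam : ℤ
  /-- multiplier of the wrap -/
  mu : ℤ
  /-- switch between the two cross bounds -/
  sw : ℤ

/-- The check of a leaf. -/
def leafB (a1 lo Sb : ℤ) (L : Leaf) : Bool :=
  match build L.lam L.mu L.sw (knots a1 lo L.b1 L.sw) 0 with
  | k :: k' :: r =>
    decide (k.t = 0) && decide (L.b1 ≤ lastI k (k' :: r)) && listB L.lam L.mu (k :: k' :: r) &&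
      decide (0 ≤ L.lam) && decide (0 ≤ L.mu) &&
      decide (0 < 2 * (L.lam * QL - L.mu * Sb - U * U) + trap2 a1 lo (k :: k' :: r))
  | _ => false

/-- The real number of an integer. -/
def re (x : ℤ) : ℝ := (x : ℝ) / 1000000

lemma le_cd_mul (a : ℤ) {b : ℤ} (hb : 0 < b) : a ≤ cd a b * b := by
  have := Int.ediv_mul_le (-a) hb.ne'
  unfold cd
  linarith

lemma re_le {x y : ℤ} : re x ≤ re y ↔ x ≤ y := by
  unfold re
  rw [div_le_div_iff_of_pos_right (by norm_num : (0 : ℝ) < 1000000), Int.cast_le]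

lemma re_lt {x y : ℤ} : re x < re y ↔ x < y := by
  unfold re
  rw [div_lt_div_iff_of_pos_right (by norm_num : (0 : ℝ) < 1000000), Int.cast_lt]

lemma re_nonneg {x : ℤ} (h : 0 ≤ x) : 0 ≤ re x := div_nonneg (Int.cast_nonneg h) (by norm_num)

lemma re_mul_le {a b c d : ℤ} (h : a * b ≤ c * d) : re a * re b ≤ re c * re d := by
  have h' : ((a * b : ℤ) : ℝ) ≤ ((c * d : ℤ) : ℝ) := Int.cast_le.2 h
  push_cast at h'
  simp only [re]
  linarith

lemma QL_le : re QL ≤ 1 / π := by
  rw [re, le_div_iff₀ Real.pi_pos]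
  have := Real.pi_lt_d20
  push_cast
  linarith

lemma PL_le : re PL ≤ π := by
  rw [re]
  have := Real.pi_gt_d20
  push_cast
  linarith

lemma rI_le {t : ℤ} (h0 : 0 ≤ rI t) (h : rI t * rI t ≤ PL * t) :
    re (rI t) ≤ Real.sqrt (π * re t) := by
  have ht : 0 ≤ t := by nlinarith
  exact Real.le_sqrt_of_sq_le ((sq (re (rI t))).le.trans
    ((re_mul_le h).trans (mul_le_mul_of_nonneg_right PL_le (re_nonneg ht))))

lemma rC_le {t : ℤ} (h0 : 0 ≤ rC t) (h : rC t * rC t ≤ PL * (U - t)) :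
    re (rC t) ≤ Real.sqrt (π * (1 - re t)) := by
  have ht : 0 ≤ U - t := by nlinarith
  have e : re (U - t) = 1 - re t := by simp only [re]; push_cast; ring
  rw [← e]
  exact Real.le_sqrt_of_sq_le ((sq (re (rC t))).le.trans
    ((re_mul_le h).trans (mul_le_mul_of_nonneg_right PL_le (re_nonneg ht))))

lemma kq_le {P : ℤ} (h0 : 0 ≤ P) (h1 : P ≤ 700000) :
    re (kq P) ≤ ∫ x in (0 : ℝ)..1, Real.sqrt (1 - (re P * x) ^ 2) := by
  refine le_trans ?_ (poly_le_K (re_nonneg h0) ((re_le.2 h1).trans_eq (by norm_num [re])))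
  set y := cd (P * P) U with hy
  have i1 : P * P ≤ y * U := le_cd_mul _ (by norm_num)
  have i2 : y ≤ cd y 6 * 6 := le_cd_mul _ (by norm_num)
  have i3 : y * y ≤ cd (y * y) (40 * U) * (40 * U) := le_cd_mul _ (by norm_num)
  have i4 : y * y * y ≤ cd (y * y * y) (56 * U * U) * (56 * U * U) := le_cd_mul _ (by norm_num)
  have e : kq P = U - cd y 6 - cd (y * y) (40 * U) - cd (y * y * y) (56 * U * U) := rfl
  rw [e]
  generalize cd y 6 = u1 at i2 ⊢
  generalize cd (y * y) (40 * U) = u2 at i3 ⊢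
  generalize cd (y * y * y) (56 * U * U) = u3 at i4 ⊢
  have r1 : re P ^ 2 ≤ re y := by
    have : ((P * P : ℤ) : ℝ) ≤ ((y * U : ℤ) : ℝ) := Int.cast_le.2 i1
    push_cast at this
    simp only [re]
    linarith
  have r2 : re y ≤ re u1 * 6 := by
    have : (y : ℝ) ≤ ((u1 * 6 : ℤ) : ℝ) := Int.cast_le.2 i2
    push_cast at this
    simp only [re]
    linarith
  have r3 : re y ^ 2 ≤ re u2 * 40 := by
    have : ((y * y : ℤ) : ℝ) ≤ ((u2 * (40 * U) : ℤ) : ℝ) := Int.cast_le.2 i3
    push_cast at this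
    simp only [re]
    linarith
  have r4 : re y ^ 3 ≤ re u3 * 56 := by
    have : ((y * y * y : ℤ) : ℝ) ≤ ((u3 * (56 * U * U) : ℤ) : ℝ) := Int.cast_le.2 i4
    push_cast at this
    simp only [re]
    linarith
  have e2 : re P ^ 4 ≤ re y ^ 2 := by
    calc re P ^ 4 = (re P ^ 2) ^ 2 := by ring
      _ ≤ _ := pow_le_pow_left₀ (sq_nonneg _) r1 2
  have e3 : re P ^ 6 ≤ re y ^ 3 := by
    calc re P ^ 6 = (re P ^ 2) ^ 3 := by ring
      _ ≤ _ := pow_le_pow_left₀ (sq_nonneg _) r1 3
  have e4 : re (U - u1 - u2 - u3) = 1 - re u1 - re u2 - re u3 := by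
    simp only [re]; push_cast; ring
  rw [e4]
  linarith

/-- The knot as a real knot. -/
def IK.real (k : IK) : Knot := ⟨re k.t, re k.c, re k.s⟩

lemma nodeB_sound {lam : ℤ} {k : IK} (h : nodeB lam k = true) :
    (0 ≤ re k.t ∧ re k.t ≤ 1) ∧ (0 ≤ re k.c ∧ 0 ≤ re k.s ∧ re k.c ^ 2 + re k.s ^ 2 ≤ 1) ∧
      re lam * re k.t ≤ re k.c * Real.sqrt (π * re k.t) := by
  simp only [nodeB, Bool.and_eq_true, decide_eq_true_eq] at h
  obtain ⟨⟨⟨⟨⟨⟨⟨h1, h2⟩, h3⟩, h4⟩, h5⟩, h6⟩, h7⟩, h8⟩ := h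
  refine ⟨⟨re_nonneg h1, (re_le.2 h2).trans_eq (by norm_num [re])⟩,
    ⟨re_nonneg h3, re_nonneg h4, ?_⟩,
    (re_mul_le h8).trans (mul_le_mul_of_nonneg_left (rI_le h6 h7) (re_nonneg h3))⟩
  have : ((k.c * k.c + k.s * k.s : ℤ) : ℝ) ≤ ((U * U : ℤ) : ℝ) := Int.cast_le.2 h5
  push_cast at this
  simp only [re]
  linarith

lemma crossI1_sound {lam : ℤ} {k : IK} (hc : 0 ≤ re k.c) (h : crossI1 lam k = true) :
    re lam * re k.t ≤ re k.c * Real.sqrt (π * (1 - re k.t)) := by
  simp only [crossI1, Bool.and_eq_true, decide_eq_true_eq] at h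
  obtain ⟨⟨h1, h2⟩, h3⟩ := h
  exact (re_mul_le h3).trans (mul_le_mul_of_nonneg_left (rC_le h1 h2) hc)

lemma crossII1_sound {lam mu p : ℤ} {k : IK} (hp : 0 < p) (hk : re k.t ≤ 1)
    (h : crossII1 lam mu p k = true) :
    0 ≤ re k.c ^ 2 * (π - 4 * re mu / re p) - 4 * re mu * re p ∧
      re lam * re k.t - 2 * re mu ≤
        Real.sqrt (re k.c ^ 2 * (π - 4 * re mu / re p) - 4 * re mu * re p) *
          Real.sqrt (1 - re k.t) := by
  simp only [crossII1, Bool.and_eq_true, decide_eq_true_eq] at h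
  obtain ⟨hF, hT⟩ := h
  set F := k.c * k.c * (2 * PL * p - 8 * mu * U) - 8 * mu * U * (p * p)
  set T := max 0 (lam * k.t - 2 * mu * U)
  have hp' : 0 < re p := div_pos (Int.cast_pos.2 hp) (by norm_num)
  set G := re k.c ^ 2 * (π - 4 * re mu / re p) - 4 * re mu * re p with hG
  have hFG : (F : ℝ) / 1000000 ^ 4 ≤ 2 * re p * G := by
    have e : 2 * re p * G = re k.c ^ 2 * (2 * π * re p - 8 * re mu) - 8 * re mu * re p ^ 2 := by
      rw [hG]; field_simp; ring
    rw [e]
    have hle : re k.c ^ 2 * (2 * re PL * re p) ≤ re k.c ^ 2 * (2 * π * re p) :=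
      mul_le_mul_of_nonneg_left (mul_le_mul_of_nonneg_right
        (mul_le_mul_of_nonneg_left PL_le (by norm_num)) hp'.le) (sq_nonneg _)
    have e2 : (F : ℝ) / 1000000 ^ 4 =
        re k.c ^ 2 * (2 * re PL * re p - 8 * re mu) - 8 * re mu * re p ^ 2 := by
      simp only [F, re]; push_cast; ring
    rw [e2]
    linarith
  have hF' : (0 : ℝ) ≤ (F : ℝ) / 1000000 ^ 4 := by
    have : (0 : ℝ) ≤ F := by exact_mod_cast hF
    positivity
  have hG0 : 0 ≤ G := nonneg_of_mul_nonneg_right (hF'.trans hFG) (by positivity)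
  refine ⟨hG0, ?_⟩
  rw [← Real.sqrt_mul hG0]
  have hT' : re lam * re k.t - 2 * re mu ≤ (T : ℝ) / 1000000 ^ 2 := by
    have : ((lam * k.t - 2 * mu * U : ℤ) : ℝ) ≤ (T : ℝ) := Int.cast_le.2 (le_max_right _ _)
    push_cast at this
    simp only [re]
    linarith
  refine hT'.trans (Real.le_sqrt_of_sq_le ?_)
  have h2 : ((2 * p * (T * T) : ℤ) : ℝ) ≤ (((U - k.t) * F : ℤ) : ℝ) := Int.cast_le.2 hT
  push_cast at h2
  have h3 := mul_le_mul_of_nonneg_left hFG (sub_nonneg.2 hk)
  have h4 : 2 * re p * ((T : ℝ) / 1000000 ^ 2) ^ 2 ≤ (1 - re k.t) * ((F : ℝ) / 1000000 ^ 4) := by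
    simp only [re]; linarith
  have h5 : 2 * re p * ((T : ℝ) / 1000000 ^ 2) ^ 2 ≤ 2 * re p * (G * (1 - re k.t)) := by linarith
  exact le_of_mul_le_mul_left h5 (by positivity)

/-- The averaged bound of a cross, minimised over its size. -/
lemma cross_avg {C m x sd T W l : ℝ} (hC : 0 ≤ C) (hs : 0 < sd) (hx : x ≤ 1)
    (hW : C * (π * C - 8 * m) = W) (hm : 8 * m ≤ π * C) (hT : T ≤ Real.sqrt (W * (1 - x)))
    (hl : C * (π / 8 * sd + 2 * (1 - x) / sd) ≤ C * l) : T + m * sd ≤ C * l := by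
  set R := sd * (C * π / 8 - m) + 2 * C * (1 - x) / sd with hR
  have hA : 0 ≤ C * π / 8 - m := by linarith
  have hD : 0 ≤ 1 - x := sub_nonneg.2 hx
  have hR0 : 0 ≤ R := by rw [hR]; positivity
  have e : R ^ 2 = (sd * (C * π / 8 - m) - 2 * C * (1 - x) / sd) ^ 2 + W * (1 - x) := by
    rw [← hW, hR]; field_simp; ring
  have h2 : W * (1 - x) ≤ R ^ 2 := by
    rw [e]; exact le_add_of_nonneg_left (sq_nonneg _)
  have h3 := hT.trans ((Real.sqrt_le_sqrt h2).trans_eq (Real.sqrt_sq hR0))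
  have e2 : C * (π / 8 * sd + 2 * (1 - x) / sd) - m * sd = R := by rw [hR]; ring
  linarith

/-- The interpolation data of a segment. -/
lemma seg_pre {lam : ℤ} {k k' : IK} (hk : nodeB lam k = true) (hk' : nodeB lam k' = true)
    (ht : k.t < k'.t) {x : ℝ} (h1 : re k.t ≤ x) (h2 : x ≤ re k'.t) :
    0 ≤ (x - re k.t) / (re k'.t - re k.t) ∧ (x - re k.t) / (re k'.t - re k.t) ≤ 1 ∧
      0 ≤ 1 - (x - re k.t) / (re k'.t - re k.t) ∧
      x = (1 - (x - re k.t) / (re k'.t - re k.t)) * re k.t +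
        (x - re k.t) / (re k'.t - re k.t) * re k'.t ∧
      0 ≤ lerp ((x - re k.t) / (re k'.t - re k.t)) (re k.c ^ 2) (re k'.c ^ 2) ∧
      (1 - (x - re k.t) / (re k'.t - re k.t)) * re k.c +
        (x - re k.t) / (re k'.t - re k.t) * re k'.c ≤
          Real.sqrt (lerp ((x - re k.t) / (re k'.t - re k.t)) (re k.c ^ 2) (re k'.c ^ 2)) := by
  have hd : 0 < re k'.t - re k.t := sub_pos.2 (re_lt.2 ht)
  set ρ := (x - re k.t) / (re k'.t - re k.t) with hρ
  have ρ0 : 0 ≤ ρ := div_nonneg (sub_nonneg.2 h1) hd.le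
  have ρ1 : ρ ≤ 1 := (div_le_one hd).2 (by linarith)
  have u : 0 ≤ 1 - ρ := sub_nonneg.2 ρ1
  refine ⟨ρ0, ρ1, u, ?_, ?_, ?_⟩
  · rw [hρ]; field_simp; ring
  · rw [lerp]; positivity
  · have := cauchy_two ρ0 ρ1 zero_le_one zero_le_one (a := re k.c) (c := re k'.c)
    simpa [lerp] using this

/-- Islands on a segment. -/
lemma seg_island {lam : ℤ} {k k' : IK} (hk : nodeB lam k = true) (hk' : nodeB lam k' = true)
    (ht : k.t < k'.t) {x : ℝ} (h1 : re k.t ≤ x) (h2 : x ≤ re k'.t) :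
    re lam * x ≤ Real.sqrt (lerp ((x - re k.t) / (re k'.t - re k.t)) (re k.c ^ 2) (re k'.c ^ 2)) *
      Real.sqrt (π * x) := by
  obtain ⟨⟨t0, -⟩, -, i0⟩ := nodeB_sound hk
  obtain ⟨⟨t0', -⟩, -, i0'⟩ := nodeB_sound hk'
  obtain ⟨ρ0, ρ1, u, hx, -, -⟩ := seg_pre hk hk' ht h1 h2
  set ρ := (x - re k.t) / (re k'.t - re k.t)
  refine le_trans ?_ ((cauchy_two ρ0 ρ1 (a := re k.c) (c := re k'.c)
    (mul_nonneg Real.pi_pos.le t0) (mul_nonneg Real.pi_pos.le t0')).trans_eq ?_)
  · calc re lam * x = (1 - ρ) * (re lam * re k.t) + ρ * (re lam * re k'.t) := by rw [hx]; ring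
      _ ≤ _ := add_le_add (mul_le_mul_of_nonneg_left i0 u) (mul_le_mul_of_nonneg_left i0' ρ0)
  · congr 2
    rw [lerp, hx]; ring

/-- Bands on a segment. -/
lemma seg_band {lam mu : ℤ} {k k' : IK} (hk : nodeB lam k = true) (hk' : nodeB lam k' = true)
    (ht : k.t < k'.t) (hmu : 0 ≤ mu) {x : ℝ} (h1 : re k.t ≤ x) (h2 : x ≤ re k'.t) {σ l : ℝ}
    (hσ0 : 0 ≤ σ) (hσ1 : σ ≤ x) (hl1 : 1 ≤ l)
    (hlP : ∀ P ∈ Icc (0 : ℝ) 1,
      (∫ y in (0 : ℝ)..1, Real.sqrt (1 - (P * y) ^ 2)) + P * (x - σ) ≤ l)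
    (hband : (decide (k'.t ≤ QL) = true ∨ bandLB lam k k' = true) ∨ bandKB lam mu k k' = true) :
    re lam * x - re mu * σ ≤
      Real.sqrt (lerp ((x - re k.t) / (re k'.t - re k.t)) (re k.c ^ 2) (re k'.c ^ 2)) * l := by
  obtain ⟨⟨t0, t1⟩, ⟨c0, -, -⟩, -⟩ := nodeB_sound hk
  obtain ⟨⟨t0', t1'⟩, ⟨c0', -, -⟩, -⟩ := nodeB_sound hk'
  obtain ⟨ρ0, ρ1, u, hx, hq0, hlerp⟩ := seg_pre hk hk' ht h1 h2
  have hmu' : 0 ≤ re mu := re_nonneg hmu
  have hx1 : x ≤ 1 := h2.trans t1'
  set ρ := (x - re k.t) / (re k'.t - re k.t) with hρ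
  set q := lerp ρ (re k.c ^ 2) (re k'.c ^ 2) with hq
  set C := Real.sqrt q with hC
  have hC0 : 0 ≤ C := Real.sqrt_nonneg _
  rcases hband with (hb | hb) | hb
  · simp only [decide_eq_true_eq] at hb
    have hxq : x ≤ 1 / π := h2.trans ((re_le.2 hb).trans QL_le)
    have : Real.sqrt (π * x) ≤ 1 := Real.sqrt_le_one.2
      ((mul_le_mul_of_nonneg_left hxq Real.pi_pos.le).trans_eq (by field_simp))
    have hi := seg_island hk hk' ht h1 h2
    nlinarith [mul_le_mul_of_nonneg_left (this.trans hl1) hC0, mul_nonneg hmu' hσ0]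
  · simp only [bandLB, Bool.and_eq_true, decide_eq_true_eq] at hb
    have e : re U = 1 := by norm_num [re]
    have b1 := mul_le_mul_of_nonneg_left (re_mul_le hb.1) u
    have b2 := mul_le_mul_of_nonneg_left (re_mul_le hb.2) ρ0
    simp only [e, mul_one] at b1 b2
    have : re lam * x ≤ C := by
      calc re lam * x = (1 - ρ) * (re lam * re k.t) + ρ * (re lam * re k'.t) := by rw [hx]; ring
        _ ≤ (1 - ρ) * re k.c + ρ * re k'.c := add_le_add b1 b2
        _ ≤ C := hlerp
    nlinarith [mul_le_mul_of_nonneg_left hl1 hC0, mul_nonneg hmu' hσ0]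
  · simp only [bandKB, Bool.and_eq_true, decide_eq_true_eq] at hb
    obtain ⟨⟨⟨⟨p0, p1⟩, pm⟩, n1⟩, n2⟩ := hb
    set P := cd (mu * U) (min k.c k'.c)
    set m := min k.c k'.c
    have hP0 := re_nonneg p0
    have hP1 : re P ≤ 1 := (re_le.2 p1).trans (by norm_num [re])
    have hK := kq_le p0 p1
    have hlin := hlP (re P) ⟨hP0, hP1⟩
    set K := ∫ y in (0 : ℝ)..1, Real.sqrt (1 - (re P * y) ^ 2)
    have hn : ∀ κ : IK, lam * κ.t - mu * κ.t ≤ κ.c * kq P → 0 ≤ re κ.c →
        (re lam - re mu) * re κ.t ≤ re κ.c * K := fun κ hκ hc => by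
      refine le_trans ?_ (mul_le_mul_of_nonneg_left hK hc)
      have : ((lam * κ.t - mu * κ.t : ℤ) : ℝ) ≤ ((κ.c * kq P : ℤ) : ℝ) := Int.cast_le.2 hκ
      push_cast at this
      simp only [re]
      linarith
    have a1 := mul_le_mul_of_nonneg_left (hn k n1 c0) u
    have a2 := mul_le_mul_of_nonneg_left (hn k' n2 c0') ρ0
    have hK0 : 0 ≤ K := intervalIntegral.integral_nonneg zero_le_one fun y _ => Real.sqrt_nonneg _
    have hb1 : (re lam - re mu) * x ≤ C * K := by
      calc (re lam - re mu) * x =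
          (1 - ρ) * ((re lam - re mu) * re k.t) + ρ * ((re lam - re mu) * re k'.t) := by
            rw [hx]; ring
        _ ≤ ((1 - ρ) * re k.c + ρ * re k'.c) * K := by linarith
        _ ≤ C * K := mul_le_mul_of_nonneg_right hlerp hK0
    have hm : re mu ≤ C * re P := by
      have e : re U = 1 := by norm_num [re]
      have e1 : re mu ≤ re P * re m := by simpa [e] using re_mul_le pm
      refine e1.trans (le_of_eq_of_le (mul_comm _ _) (mul_le_mul_of_nonneg_right ?_ hP0))
      refine le_trans ?_ hlerp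
      have k1 : re m ≤ re k.c := re_le.2 (min_le_left _ _)
      have k2 : re m ≤ re k'.c := re_le.2 (min_le_right _ _)
      nlinarith
    nlinarith [mul_le_mul_of_nonneg_left hlin hC0,
      mul_le_mul_of_nonneg_right hm (sub_nonneg.2 hσ1)]

/-- Crosses on a segment. -/
lemma seg_cross {lam mu : ℤ} {k k' : IK} (hk : nodeB lam k = true) (hk' : nodeB lam k' = true)
    (ht : k.t < k'.t) (hmu : 0 ≤ mu) {x : ℝ} (h1 : re k.t ≤ x) (h2 : x ≤ re k'.t) {σ l : ℝ}
    (hσ0 : 0 ≤ σ) (hσ2 : σ ≤ 2) (hlf : Real.sqrt (π * (1 - x)) ≤ l)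
    (hlφ : σ < 2 → π / 8 * (2 - σ) + 2 * (1 - x) / (2 - σ) ≤ l)
    (hcross : (crossI1 lam k = true ∧ crossI1 lam k' = true) ∨
      ((decide (0 < k.c) = true ∧ crossII1 lam mu k.c k = true) ∧
        crossII1 lam mu k.c k' = true)) :
    re lam * x - re mu * σ ≤
      Real.sqrt (lerp ((x - re k.t) / (re k'.t - re k.t)) (re k.c ^ 2) (re k'.c ^ 2)) * l := by
  obtain ⟨⟨t0, t1⟩, ⟨c0, -, -⟩, -⟩ := nodeB_sound hk
  obtain ⟨⟨t0', t1'⟩, ⟨c0', -, -⟩, -⟩ := nodeB_sound hk'
  obtain ⟨ρ0, ρ1, u, hx, hq0, hlerp⟩ := seg_pre hk hk' ht h1 h2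
  have hmu' : 0 ≤ re mu := re_nonneg hmu
  have hx1 : x ≤ 1 := h2.trans t1'
  set ρ := (x - re k.t) / (re k'.t - re k.t) with hρ
  set q := lerp ρ (re k.c ^ 2) (re k'.c ^ 2) with hq
  set C := Real.sqrt q with hC
  have hC0 : 0 ≤ C := Real.sqrt_nonneg _
  have hD : 0 ≤ 1 - x := sub_nonneg.2 hx1
  rcases hcross with ⟨hI, hI'⟩ | hII
  · have a := cauchy_two ρ0 ρ1 (a := re k.c) (c := re k'.c)
      (mul_nonneg Real.pi_pos.le (sub_nonneg.2 t1)) (mul_nonneg Real.pi_pos.le (sub_nonneg.2 t1'))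
    have e : lerp ρ (π * (1 - re k.t)) (π * (1 - re k'.t)) = π * (1 - x) := by
      rw [lerp, hx]; ring
    rw [e] at a
    have hL : re lam * x ≤ C * Real.sqrt (π * (1 - x)) := by
      refine le_trans ?_ a
      calc re lam * x = (1 - ρ) * (re lam * re k.t) + ρ * (re lam * re k'.t) := by rw [hx]; ring
        _ ≤ _ := add_le_add (mul_le_mul_of_nonneg_left (crossI1_sound c0 hI) u)
          (mul_le_mul_of_nonneg_left (crossI1_sound c0' hI') ρ0)
    nlinarith [mul_le_mul_of_nonneg_left hlf hC0, mul_nonneg hmu' hσ0]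
  · simp only [decide_eq_true_eq] at hII
    obtain ⟨⟨hp, hII1⟩, hII2⟩ := hII
    obtain ⟨g1, f1⟩ := crossII1_sound hp t1 hII1
    obtain ⟨g2, f2⟩ := crossII1_sound hp t1' hII2
    set p := re k.c
    have hp' : 0 < p := div_pos (Int.cast_pos.2 hp) (by norm_num)
    set G : ℝ → ℝ := fun c => c ^ 2 * (π - 4 * re mu / p) - 4 * re mu * p with hG
    set W := π * q - 8 * re mu * C with hW
    have hGW : lerp ρ (G p) (G (re k'.c)) ≤ W := by
      have hCq : C ^ 2 = q := Real.sq_sqrt hq0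
      have h2C : 8 * re mu * C ≤ 4 * re mu / p * q + 4 * re mu * p := by
        rw [← hCq, div_mul_eq_mul_div, div_add' _ _ _ hp'.ne', le_div_iff₀ hp']
        nlinarith [mul_nonneg hmu' (sq_nonneg (C - p))]
      have e : lerp ρ (G p) (G (re k'.c)) = q * (π - 4 * re mu / p) - 4 * re mu * p := by
        simp only [hG, hq, lerp]; ring
      rw [e, hW]
      linarith
    have hlG : 0 ≤ lerp ρ (G p) (G (re k'.c)) := by
      rw [lerp]; exact add_nonneg (mul_nonneg u g1) (mul_nonneg ρ0 g2)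
    have hT : re lam * x - 2 * re mu ≤ Real.sqrt W * Real.sqrt (1 - x) := by
      have a := cauchy_two ρ0 ρ1 (a := Real.sqrt (G p)) (c := Real.sqrt (G (re k'.c)))
        (sub_nonneg.2 t1) (sub_nonneg.2 t1')
      rw [Real.sq_sqrt g1, Real.sq_sqrt g2] at a
      have e : lerp ρ (1 - re k.t) (1 - re k'.t) = 1 - x := by rw [lerp, hx]; ring
      rw [e] at a
      refine le_trans ?_ (a.trans (mul_le_mul_of_nonneg_right (Real.sqrt_le_sqrt hGW)
        (Real.sqrt_nonneg _)))
      calc re lam * x - 2 * re mu = (1 - ρ) * (re lam * re k.t - 2 * re mu) +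
          ρ * (re lam * re k'.t - 2 * re mu) := by rw [hx]; ring
        _ ≤ _ := add_le_add (mul_le_mul_of_nonneg_left f1 u) (mul_le_mul_of_nonneg_left f2 ρ0)
    have hW0 : 0 ≤ W := hlG.trans hGW
    rw [← Real.sqrt_mul hW0] at hT
    rcases eq_or_lt_of_le hσ2 with hσ | hσ
    · have hWq : W * (1 - x) ≤ C ^ 2 * (π * (1 - x)) := by
        rw [hC, Real.sq_sqrt hq0, hW]
        nlinarith [mul_nonneg (mul_nonneg hmu' hC0) hD]
      have := Real.sqrt_le_sqrt hWq
      rw [Real.sqrt_mul (sq_nonneg C), Real.sqrt_sq hC0] at this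
      have := mul_le_mul_of_nonneg_left hlf hC0
      rw [hσ]
      linarith
    have hs : 0 < 2 - σ := sub_pos.2 hσ
    have hφ := mul_le_mul_of_nonneg_left (hlφ hσ) hC0
    set sd := 2 - σ with hsd
    have hCW : C * (π * C - 8 * re mu) = W := by
      rw [hW, ← Real.sq_sqrt hq0, ← hC]; ring
    have hCmu : 8 * re mu ≤ π * C := by
      rcases hC0.eq_or_lt with h | h
      · have hq' : q = 0 := by
          rw [← Real.sq_sqrt hq0, ← hC, ← h]; norm_num
        have : lerp ρ (G p) (G (re k'.c)) = q * (π - 4 * re mu / p) - 4 * re mu * p := by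
          simp only [hG, hq, lerp]; ring
        rw [this, hq', zero_mul, zero_sub] at hlG
        have hmp : re mu * p ≤ 0 := by linarith only [hlG]
        have hm0 : re mu ≤ 0 := nonpos_of_mul_nonpos_left hmp hp'
        rw [← h, mul_zero]
        linarith only [hm0]
      · rw [← hCW] at hW0
        linarith [nonneg_of_mul_nonneg_right hW0 h]
    have := cross_avg hC0 hs hx1 hCW hCmu hT hφ
    have e2 : re mu * σ = 2 * re mu - re mu * sd := by rw [hsd]; ring
    linarith


/-- Pointwise domination on a segment. -/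
lemma seg_dom {lam mu : ℤ} {k k' : IK} (hk : nodeB lam k = true) (hk' : nodeB lam k' = true)
    (ht : k.t < k'.t) (hmu : 0 ≤ mu) {x : ℝ} (h1 : re k.t ≤ x) (h2 : x ≤ re k'.t) {σ l : ℝ}
    (h : segB lam mu k k' = true) (hl : SymAdm x σ l) :
    re lam * x - re mu * σ ≤
      Real.sqrt (lerp ((x - re k.t) / (re k'.t - re k.t)) (re k.c ^ 2) (re k'.c ^ 2)) * l := by
  simp only [segB, Bool.and_eq_true, Bool.or_eq_true] at h
  rcases hl with ⟨hσ, hl⟩ | ⟨hσ0, hσ1, hl1, hlP⟩ | ⟨hσ0, hσ2, hlf, hlφ⟩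
  · rw [hσ, mul_zero, sub_zero]
    exact (seg_island hk hk' ht h1 h2).trans (mul_le_mul_of_nonneg_left hl (Real.sqrt_nonneg _))
  · exact seg_band hk hk' ht hmu h1 h2 hσ0 hσ1 hl1 hlP h.1
  · exact seg_cross hk hk' ht hmu h1 h2 hσ0 hσ2 hlf hlφ h.2

lemma last_real : ∀ (r : List IK) (k : IK), lastT k.real (r.map IK.real) = re (lastI k r)
  | [], _ => rfl
  | k' :: r, _ => last_real r k'

lemma trap_real (lo hi : ℤ) : ∀ l : List IK,
    trapIn (re lo) (re hi) (l.map IK.real) = (trap2 lo hi l : ℝ) / (2 * 1000000 ^ 2)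
  | [] => by simp [trapIn, trap2]
  | [_] => by simp [trapIn, trap2]
  | k :: k' :: r => by
    have ih := trap_real lo hi (k' :: r)
    simp only [List.map] at ih
    simp only [List.map, trapIn, trap2, Int.cast_add]
    rw [ih, add_div]
    congr 1
    simp only [IK.real, re_le]
    split_ifs with h
    · simp only [re]; push_cast; ring
    · simp

lemma list_valid {lam mu : ℤ} : ∀ l : List IK, listB lam mu l = true → Valid (l.map IK.real)
  | [], _ => trivial
  | [k], h => by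
    simp only [listB] at h
    exact (nodeB_sound h).2.1
  | k :: k' :: r, h => by
    simp only [listB, Bool.and_eq_true, decide_eq_true_eq] at h
    exact ⟨(nodeB_sound h.1.1.1).2.1, re_lt.2 h.1.1.2, list_valid (k' :: r) h.2⟩

lemma list_head {lam mu : ℤ} : ∀ {k : IK} {r : List IK}, listB lam mu (k :: r) = true →
    nodeB lam k = true
  | _, [], h => h
  | _, _ :: _, h => by
    simp only [listB, Bool.and_eq_true] at h
    exact h.1.1.1

lemma list_dom {lam mu : ℤ} (hmu : 0 ≤ mu) : ∀ (r : List IK) (k : IK), r ≠ [] →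
    listB lam mu (k :: r) = true → ∀ x, re k.t ≤ x → x ≤ re (lastI k r) → ∀ σ l, SymAdm x σ l →
      re lam * x - re mu * σ ≤ cFun ((k :: r).map IK.real) x * l
  | [], _, h, _ => absurd rfl h
  | k' :: r, k, _, h => by
    intro x hx1 hx2 σ l hl
    simp only [listB, Bool.and_eq_true, decide_eq_true_eq] at h
    obtain ⟨⟨⟨hk, hlt⟩, hseg⟩, hr⟩ := h
    simp only [List.map]
    by_cases hx : x ≤ re k'.t
    · have hx' : x ≤ k'.real.t := hx
      simp only [cFun, interp, if_pos hx']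
      rw [Calib.clamp_of_mem (show k.real.t < k'.real.t from re_lt.2 hlt) hx1 hx']
      exact seg_dom hk (list_head hr) hlt hmu hx1 hx hseg hl
    · have hx' : ¬ x ≤ k'.real.t := hx
      simp only [cFun, interp, if_neg hx']
      rcases r with _ | ⟨k'', r⟩
      · exact absurd hx2 hx
      exact list_dom hmu (k'' :: r) k' (by simp) hr x (le_of_not_ge hx) hx2 σ l hl

/-- A checked leaf bounds the perimeter, with room to spare. -/
theorem leaf_sound {a1 lo Sb : ℤ} {L : Leaf} (h : leafB a1 lo Sb L = true) :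
    ∃ δ > 0, ∃ κ ≥ 0, ∀ e : ℝ, 0 ≤ e → ∀ (D : Set R3) (M : ℝ), IsReduced D M →
      ∀ i j k : Fin 3, i ≠ j → k ≠ i → k ≠ j → ∀ a b au aw : ℝ,
        Tendsto (sliceArea D i j) (𝓝[<] 1) (𝓝 a) → Tendsto (sliceArea D i j) (𝓝[>] 0) (𝓝 b) →
        Tendsto (sliceArea D k j) (𝓝[<] 1) (𝓝 au) → Tendsto (sliceArea D k i) (𝓝[<] 1) (𝓝 aw) →
        au + aw ≤ re Sb + e → re QL - e ≤ boxVolume D → a ≤ re a1 → re lo ≤ b → b ≤ re L.b1 →
          1 + δ - κ * e ≤ M := by
  unfold leafB at h
  split at h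
  case h_2 => exact absurd h Bool.false_ne_true
  case h_1 kk k' r hbuild =>
    simp only [Bool.and_eq_true, decide_eq_true_eq] at h
    obtain ⟨⟨⟨⟨⟨h0, hlast⟩, hlist⟩, hlam⟩, hmu⟩, hm⟩ := h
    set δ := re L.lam * re QL - re L.mu * re Sb +
      (trap2 a1 lo (kk :: k' :: r) : ℝ) / (2 * 1000000 ^ 2) - 1 with hδ
    have hδ0 : 0 < δ := by
      have : ((0 : ℤ) : ℝ) < ((2 * (L.lam * QL - L.mu * Sb - U * U) +
          trap2 a1 lo (kk :: k' :: r) : ℤ) : ℝ) := Int.cast_lt.2 hm
      push_cast at this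
      rw [hδ]
      simp only [re]
      push_cast
      linarith
    refine ⟨δ, hδ0, re L.lam + re L.mu, add_nonneg (re_nonneg hlam) (re_nonneg hmu), ?_⟩
    intro e he D M hD i j k hij hki hkj a b au aw ha hb hau haw hG hvol haa hlo hb1
    have hv := list_valid _ hlist
    simp only [List.map] at hv
    have hmid := T1.sliceArea_between hD ha hb (z := 1 / 2) ⟨by norm_num, by norm_num⟩
    have hab : a ≤ b := hmid.1.trans hmid.2
    have ha0 : re kk.t ≤ a := by
      rw [h0]
      simp only [re, Int.cast_zero, zero_div]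
      exact ge_of_tendsto ha (Eventually.of_forall fun z => (sliceArea_mem hD.down z).1)
    have hbl : b ≤ re (lastI kk (k' :: r)) := hb1.trans (re_le.2 hlast)
    set ks := (kk :: k' :: r).map IK.real with hks
    have hcc : Continuous (cFun ks) := (Calib.continuous_interp (fun k => k.c ^ 2) _ hv).sqrt
    have hsc : Continuous (interp Knot.s ks) := Calib.continuous_interp Knot.s _ hv
    have hsd := T1.sq_disc ks hv
    have hm' := master hD hij hki hkj ha hb hau haw hG (re_nonneg hmu) hcc hsc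
      (fun t => Real.sqrt_nonneg _) (fun t => (Calib.interp_disc _ hv t).2.1)
      (fun t => by
        rw [cFun, Real.sq_sqrt (hsd t).1]
        exact (hsd t).2)
      (fun t ht σ l hl => list_dom hmu (k' :: r) kk (by simp) hlist t (ha0.trans ht.1)
        (ht.2.trans hbl) σ l hl)
    have htrap : (trap2 a1 lo (kk :: k' :: r) : ℝ) / (2 * 1000000 ^ 2) ≤
        ∫ t in a..b, interp Knot.s ks t := by
      rw [← trap_real]
      refine (T1.trapIn_le (re a1) (re lo) _ _ hv).trans ?_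
      have hnn : ∀ t, 0 ≤ interp Knot.s ks t := fun t => (Calib.interp_disc _ hv t).2.1
      have hI : ∀ c d : ℝ, IntervalIntegrable ((Icc c d).indicator (interp Knot.s ks)) volume
          kk.real.t (lastT kk.real ((k' :: r).map IK.real)) := fun c d => by
        have := hsc.intervalIntegrable (μ := volume) kk.real.t
          (lastT kk.real ((k' :: r).map IK.real))
        rw [intervalIntegrable_iff] at this ⊢
        exact this.indicator measurableSet_Icc
      have hle : kk.real.t ≤ lastT kk.real ((k' :: r).map IK.real) := lastT_ge _ _ hv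
      calc _ ≤ ∫ x in kk.real.t..lastT kk.real ((k' :: r).map IK.real),
            (Icc a b).indicator (interp Knot.s ks) x :=
            intervalIntegral.integral_mono_on hle (hI _ _) (hI _ _) fun x _ =>
              indicator_le_indicator_of_subset (Icc_subset_Icc haa hlo) hnn x
        _ = ∫ x in a..b, interp Knot.s ks x := by
            rw [intervalIntegral.integral_of_le hle, intervalIntegral.integral_of_le hab,
              ← integral_Icc_eq_integral_Ioc, ← integral_Icc_eq_integral_Ioc,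
              setIntegral_indicator measurableSet_Icc,
              inter_eq_right.2 (Icc_subset_Icc (show kk.real.t ≤ a from ha0)
                (show b ≤ lastT kk.real ((k' :: r).map IK.real) by rw [last_real]; exact hbl))]
    have hl2 := mul_le_mul_of_nonneg_left hvol (re_nonneg hlam)
    rw [hδ]
    linarith

/-- The leaves of a cell cover `[lo, 1]`. -/
def chainB (a1 Sb : ℤ) : ℤ → List Leaf → Bool
  | lo, [] => decide (lo = U)
  | lo, L :: r => leafB a1 lo Sb L && decide (lo ≤ L.b1) && chainB a1 Sb L.b1 r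

/-- A checked chain bounds the perimeter, with room to spare. -/
theorem chain_sound (a1 Sb : ℤ) : ∀ (r : List Leaf) (lo : ℤ), r ≠ [] →
    chainB a1 Sb lo r = true →
    ∃ δ > 0, ∃ κ ≥ 0, ∀ e : ℝ, 0 ≤ e → ∀ (D : Set R3) (M : ℝ), IsReduced D M →
      ∀ i j k : Fin 3, i ≠ j → k ≠ i → k ≠ j → ∀ a b au aw : ℝ,
        Tendsto (sliceArea D i j) (𝓝[<] 1) (𝓝 a) → Tendsto (sliceArea D i j) (𝓝[>] 0) (𝓝 b) →
        Tendsto (sliceArea D k j) (𝓝[<] 1) (𝓝 au) → Tendsto (sliceArea D k i) (𝓝[<] 1) (𝓝 aw) →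
        au + aw ≤ re Sb + e → re QL - e ≤ boxVolume D → a ≤ re a1 → re lo ≤ b →
          1 + δ - κ * e ≤ M
  | [], _, h, _ => absurd rfl h
  | L :: r, lo, _, h => by
    simp only [chainB, Bool.and_eq_true, decide_eq_true_eq] at h
    obtain ⟨⟨hL, -⟩, hr⟩ := h
    obtain ⟨δ, hδ, κ, hκ, hb⟩ := leaf_sound hL
    rcases r with _ | ⟨L', r⟩
    · simp only [chainB, decide_eq_true_eq] at hr
      refine ⟨δ, hδ, κ, hκ, fun e he D M hD i j k hij hki hkj a b au aw ha hb' hau haw hG hV h1 h2 =>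
        hb e he D M hD i j k hij hki hkj a b au aw ha hb' hau haw hG hV h1 h2 ?_⟩
      rw [hr, show re U = 1 by norm_num [re]]
      exact le_of_tendsto hb' (Eventually.of_forall fun z => (sliceArea_mem hD.down z).2)
    · obtain ⟨δ', hδ', κ', hκ', hb'⟩ := chain_sound a1 Sb (L' :: r) L.b1 (by simp) hr
      refine ⟨min δ δ', lt_min hδ hδ', max κ κ', hκ.trans (le_max_left _ _),
        fun e he D M hD i j k hij hki hkj a b au aw ha hbb hau haw hG hV h1 h2 => ?_⟩
      rcases le_total b (re L.b1) with h3 | h3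
      · linarith [hb e he D M hD i j k hij hki hkj a b au aw ha hbb hau haw hG hV h1 h2 h3,
          min_le_left δ δ', mul_le_mul_of_nonneg_right (le_max_left κ κ') he]
      · linarith [hb' e he D M hD i j k hij hki hkj a b au aw ha hbb hau haw hG hV h1 h3,
          min_le_right δ δ', mul_le_mul_of_nonneg_right (le_max_right κ κ') he]

end Vale.Agent.P232.Gap.KinkSplit
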