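import Vale.Agent.P232.Gap.TwoBudget

/-!
# P232 gap, kink split: the master inequality averaged over the two orientations of the slices

With `σ = u + w`, an island has length `√(π A)`, a band `K(P) + P (A - σ)` in either orientation
(`K(P) = ∫₀¹ √(1 - P²x²)`), and the mean over the orientations of the length of a cross is at least
`π s/8 + 2(1 - A)/s`, `s = 2 - σ`.
-/

open MeasureTheory Set Filter
open scoped Real Topology

noncomputable section

namespace Vale.Agent.P232.Gap.KinkSplit

/-- What is known about a slice of area `t` with wrap sum `σ` and mean length `l`. -/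
def SymAdm (t σ l : ℝ) : Prop :=
  (σ = 0 ∧ Real.sqrt (π * t) ≤ l) ∨
    (0 ≤ σ ∧ σ ≤ t ∧ 1 ≤ l ∧
      ∀ P ∈ Icc (0 : ℝ) 1, (∫ x in (0 : ℝ)..1, Real.sqrt (1 - (P * x) ^ 2)) + P * (t - σ) ≤ l) ∨
    (0 ≤ σ ∧ σ ≤ 2 ∧ Real.sqrt (π * (1 - t)) ≤ l ∧
      (σ < 2 → π / 8 * (2 - σ) + 2 * (1 - t) / (2 - σ) ≤ l))

theorem arcArea_zero : Slice.arcArea 0 = 0 := by simp [Slice.arcArea]

theorem arcArea_one : Slice.arcArea 1 = π / 4 := by
  simp [Slice.arcArea, Real.arcsin_one]; ring

theorem K_eq {P : ℝ} (h0 : 0 < P) (h1 : P ≤ 1) :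
    ∫ x in (0 : ℝ)..1, Real.sqrt (1 - (P * x) ^ 2) = Slice.arcArea P / P := by
  have h := Slice.integral_sqrt_affine (w := 0) (X := 1) (p := P) (q := 0) h0.ne' zero_le_one
    (by simp) (by rw [mul_one, add_zero, abs_of_pos h0]; exact h1)
  simpa [arcArea_zero] using h

/-- Tilting the arc of a band does not shorten it. -/
theorem arc_tilt {P β : ℝ} (h0 : 0 < P) (h1 : P ≤ 1) (hb0 : 0 ≤ β) (hb1 : β ≤ 1) :
    Slice.arcArea P / P ≤ (Slice.arcArea 1 - Slice.arcArea β) / P + β := by
  set γ := Real.sqrt (1 - P ^ 2) with hγ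
  have hP2 : 0 ≤ 1 - P ^ 2 := by nlinarith
  have hγ0 : 0 ≤ γ := Real.sqrt_nonneg _
  have hγ1 : γ ≤ 1 := Real.sqrt_le_one.2 (by nlinarith)
  have hγP : Real.sqrt (1 - γ ^ 2) = P := by
    rw [hγ, Real.sq_sqrt hP2, sub_sub_cancel, Real.sqrt_sq h0.le]
  have hid : Slice.arcArea γ + Slice.arcArea P = Slice.arcArea 1 + P * γ := by
    have e : Real.arcsin γ = π / 2 - Real.arcsin P := by
      rw [hγ, ← Real.arccos_eq_arcsin h0.le, Real.arccos_eq_pi_div_two_sub_arcsin]
    simp only [Slice.arcArea, hγP, e]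
    rw [← hγ]
    simp [Real.arcsin_one]
    ring
  have hc : Continuous fun x : ℝ => Real.sqrt (1 - x ^ 2) := by fun_prop
  have key : Slice.arcArea β - Slice.arcArea γ ≤ P * (β - γ) := by
    rcases le_total γ β with h | h
    · rw [← Slice.integral_sqrt (by linarith) h hb1]
      refine (intervalIntegral.integral_mono_on (μ := volume) h (hc.intervalIntegrable _ _)
        (intervalIntegrable_const (c := P)) fun x hx => ?_).trans_eq (by simp; ring)
      rw [← hγP]
      exact Real.sqrt_le_sqrt (by nlinarith [hx.1])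
    · have := intervalIntegral.integral_mono_on (μ := volume) h (intervalIntegrable_const (c := P))
        (hc.intervalIntegrable β γ) fun x hx => by
          rw [← hγP]
          exact Real.sqrt_le_sqrt (by nlinarith [hx.1, hx.2])
      rw [Slice.integral_sqrt (by linarith) h hγ1] at this
      simp at this
      linarith
  rw [div_le_iff₀ h0, add_mul, div_mul_cancel₀ _ h0.ne']
  linarith

variable {s : Slice} {l : ℝ}

/-- The band bound when the band has a top width. -/
theorem band_top_family (h : s.Master l) (hu : s.u = 0) (hw : 0 < s.w) {P : ℝ}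
    (hP : P ∈ Icc (0 : ℝ) 1) :
    (∫ x in (0 : ℝ)..1, Real.sqrt (1 - (P * x) ^ 2)) + P * (s.A - s.w) ≤ l := by
  have hY := s.Y_eq hw
  rcases hP.1.eq_or_lt with hP0 | hP0
  · have hc := Slice.chord_le h
    have h1 : (1 : ℝ) ≤ Real.sqrt ((s.X - s.w) ^ 2 + (s.Y - s.u) ^ 2) :=
      Real.le_sqrt_of_sq_le (by rw [hY, hu]; nlinarith [sq_nonneg (s.X - s.w)])
    simp only [← hP0, zero_mul, ne_eq, OfNat.ofNat_ne_zero, not_false_eq_true, zero_pow, sub_zero,
      Real.sqrt_one, intervalIntegral.integral_const, smul_eq_mul, mul_one, add_zero]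
    linarith
  have hXw : s.X - s.w ≤ 1 := by linarith [s.X_le]
  have hXw0 : 0 ≤ s.X - s.w := sub_nonneg.2 s.w_le
  have e1 : P * s.w + (1 - P * s.X) = 1 - P * (s.X - s.w) := by ring
  have hb : 0 ≤ 1 - P * (s.X - s.w) := by nlinarith [hP.2]
  have hb1 : 1 - P * (s.X - s.w) ≤ 1 := by nlinarith
  have ha := Slice.arc_le h (p := P) (q := 1 - P * s.X) hP0.ne'
    (by rw [e1, abs_of_nonneg hb]; exact hb1) (by rw [add_sub_cancel, abs_one])
  rw [e1, add_sub_cancel, hu, hY] at ha
  rw [K_eq hP0 hP.2]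
  linarith [arc_tilt hP0 hP.2 hb hb1]

/-- A cross measured along the first axis. -/
theorem cross_side (h : s.Master l) (hY : s.Y = 1) (hX : s.X = 1) (hw : s.w < 1) :
    (1 - s.w) * (π / 4) + (1 - s.A) / (1 - s.w) ≤ l := by
  have h0 : 0 < 1 - s.w := sub_pos.2 hw
  have hb : -(1 / (1 - s.w)) * s.w + 1 / (1 - s.w) = 1 := by field_simp; ring
  have h1 := h (-(1 / (1 - s.w))) (1 / (1 - s.w)) (by rw [hb, abs_one]) (by simp [hX])
  simp only [Slice.flux, hX, hY, hb, mul_one, neg_add_cancel, zero_mul, sub_zero] at h1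
  have e : ∀ x : ℝ, -(1 / (1 - s.w)) * x + 1 / (1 - s.w) = (1 - x) / (1 - s.w) := fun x => by ring
  simp only [e, (Slice.integral_arc hw).2] at h1
  refine le_of_eq_of_le ?_ h1
  field_simp
  ring

/-- A slice and its transpose. -/
theorem symAdm_of_pair {s s' : Slice} {l l' : ℝ} (h : s.Master l) (h' : s'.Master l')
    (hA : s'.A = s.A) (hu : s'.u = s.w) (hw : s'.w = s.u) :
    SymAdm s.A (s.u + s.w) ((l + l') / 2) := by
  have X1 : ∀ r : Slice, 0 < r.u → r.X = 1 := fun r hr => by
    by_contra hne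
    exact hr.ne' (r.u_eq (lt_of_le_of_ne r.X_le hne))
  rcases s.w_nonneg.eq_or_lt with hw0 | hw0 <;> rcases s.u_nonneg.eq_or_lt with hu0 | hu0
  · refine Or.inl ⟨by linarith, ?_⟩
    have h1 := Slice.island_le h hw0.symm hu0.symm
    have h2 := Slice.island_le h' (hw.trans hu0.symm) (hu.trans hw0.symm)
    rw [hA] at h2
    linarith
  · obtain ⟨a1, -, a3⟩ := bandAdm_of_master h hw0.symm (X1 s hu0)
    have b1 := fun P (hP : P ∈ Icc (0 : ℝ) 1) =>
      band_top_family h' (hu.trans hw0.symm) (hw ▸ hu0) hP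
    refine Or.inr (Or.inl ⟨by linarith, by linarith [s.u_le_A], ?_, fun P hP => ?_⟩)
    · have := b1 0 ⟨le_rfl, zero_le_one⟩
      simp at this
      linarith
    · have := b1 P hP
      rw [hw, hA] at this
      have := a3 P hP
      rw [show s.A - (s.u + s.w) = s.A - s.u by linarith]
      linarith
  · have hu' : 0 < s'.u := hu ▸ hw0
    obtain ⟨a1, -, a3⟩ := bandAdm_of_master h' (hw.trans hu0.symm) (X1 s' hu')
    have b1 := fun P (hP : P ∈ Icc (0 : ℝ) 1) => band_top_family h hu0.symm hw0 hP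
    refine Or.inr (Or.inl ⟨by linarith, by linarith [s.w_le_A], ?_, fun P hP => ?_⟩)
    · have := b1 0 ⟨le_rfl, zero_le_one⟩
      simp at this
      linarith
    · have := b1 P hP
      have := a3 P hP
      rw [hu, hA] at this
      rw [show s.A - (s.u + s.w) = s.A - s.w by linarith]
      linarith
  · have hX := X1 s hu0
    have hX' := X1 s' (hu ▸ hw0)
    have hY := s.Y_eq hw0
    have hY' := s'.Y_eq (hw ▸ hu0)
    have hu1 : s.u ≤ 1 := s.u_le.trans s.Y_le
    have hw1 : s.w ≤ 1 := s.w_le.trans s.X_le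
    have c1 := Slice.cross_le h hY hX
    have c2 := Slice.cross_le h' hY' hX'
    rw [hA] at c2
    refine Or.inr (Or.inr ⟨by linarith, by linarith, by linarith, fun hσ => ?_⟩)
    set X := 1 - s.w with hXd
    set Y := 1 - s.u with hYd
    have hD : 0 ≤ 1 - s.A := by linarith [s.A_le_X, s.X_le]
    rw [show 2 - (s.u + s.w) = X + Y by rw [hXd, hYd]; ring]
    have hsum : 0 < X + Y := by rw [hXd, hYd]; linarith
    by_cases hz : s.w = 1 ∨ s.u = 1
    · have hA1 : s.A = 1 := by
        rcases hz with hz | hz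
        · linarith [s.w_le_A, s.A_le_X, s.X_le]
        · linarith [s.u_le_A, s.A_le_X, s.X_le]
      rw [hA1, sub_self, mul_zero, zero_div, add_zero]
      have hc : ∀ {r : Slice} {m : ℝ}, r.Master m → r.X = 1 → r.Y = 1 →
          (1 / 2) * ((1 - r.w) + (1 - r.u)) ≤ m := fun {r m} hm hX hY => by
        refine le_trans (Real.le_sqrt_of_sq_le ?_) (Slice.chord_le hm)
        rw [hX, hY]
        nlinarith [sq_nonneg (r.w - r.u), sq_nonneg (1 - r.w), sq_nonneg (1 - r.u)]
      have := hc h hX hY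
      have := hc h' hX' hY'
      rw [hu, hw] at this
      rw [hXd, hYd]
      nlinarith [Real.pi_lt_d2]
    · push Not at hz
      have hX0 : 0 < X := sub_pos.2 (lt_of_le_of_ne hw1 hz.1)
      have hY0 : 0 < Y := sub_pos.2 (lt_of_le_of_ne hu1 hz.2)
      have e1 := cross_side h hY hX (by linarith)
      have e2 := cross_side h' hY' hX' (by rw [hw]; linarith)
      rw [hw, hA] at e2
      have key : 4 / (X + Y) ≤ 1 / X + 1 / Y := by
        rw [div_add_div _ _ hX0.ne' hY0.ne', div_le_div_iff₀ hsum (mul_pos hX0 hY0)]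
        nlinarith [sq_nonneg (X - Y)]
      have := mul_le_mul_of_nonneg_left key hD
      rw [← hXd] at e1
      rw [← hYd] at e2
      have t1 : (1 - s.A) * (4 / (X + Y)) = 2 * (2 * (1 - s.A) / (X + Y)) := by ring
      have t2 : (1 - s.A) * (1 / X + 1 / Y) = (1 - s.A) / X + (1 - s.A) / Y := by ring
      linarith

/-- `c(A) l` dominates the linear form on all slices. -/
def Dom (a b lam mu : ℝ) (c : ℝ → ℝ) : Prop :=
  ∀ t ∈ Icc a b, ∀ σ l, SymAdm t σ l → lam * t - mu * σ ≤ c t * l

variable {D : Set R3} {M : ℝ} {i j k : Fin 3}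

/-- **The symmetrical master inequality.** -/
theorem master (h : IsReduced D M) (hij : i ≠ j) (hki : k ≠ i) (hkj : k ≠ j)
    {a b au aw G lam mu : ℝ} {c sf : ℝ → ℝ}
    (ha : Tendsto (sliceArea D i j) (𝓝[<] 1) (𝓝 a))
    (hb : Tendsto (sliceArea D i j) (𝓝[>] 0) (𝓝 b))
    (hau : Tendsto (sliceArea D k j) (𝓝[<] 1) (𝓝 au))
    (haw : Tendsto (sliceArea D k i) (𝓝[<] 1) (𝓝 aw)) (hG : au + aw ≤ G) (hmu : 0 ≤ mu)
    (hc : Continuous c) (hs : Continuous sf) (hc0 : ∀ t, 0 ≤ c t) (hs0 : ∀ t, 0 ≤ sf t)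
    (hcs : ∀ t, c t ^ 2 + sf t ^ 2 ≤ 1) (hD : Dom a b lam mu c) :
    lam * boxVolume D - mu * G + ∫ t in a..b, sf t ≤ M := by
  obtain ⟨k', hk'i, hk'j, hall'⟩ := exists_third hij
  obtain rfl : k' = k := by
    rcases hall' k with h | h | h
    exacts [absurd h hki, absurd h hkj, h.symm]
  have swap_eq : ∀ z, sliceArea D j i z = sliceArea D i j z :=
    fun z => sliceArea_swap h.down h.measurable hij z
  have ha' : Tendsto (sliceArea D j i) (𝓝[<] 1) (𝓝 a) := by simpa only [funext swap_eq] using ha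
  have hb' : Tendsto (sliceArea D j i) (𝓝[>] 0) (𝓝 b) := by simpa only [funext swap_eq] using hb
  have S1 := T1.slice_limits h hij ha hb hc hs hc0 hs0 hcs
  have S2 := T1.slice_limits h hij.symm ha' hb' hc hs hc0 hs0 hcs
  have I1 := (slicing D M h i j hij c sf hc hs hc0 hs0 hcs (1 / 2) ⟨by norm_num, by norm_num⟩
    (1 / 2) ⟨by norm_num, by norm_num⟩ le_rfl).1
  have I2 := (slicing D M h j i hij.symm c sf hc hs hc0 hs0 hcs (1 / 2) ⟨by norm_num, by norm_num⟩
    (1 / 2) ⟨by norm_num, by norm_num⟩ le_rfl).1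
  have hu : Antitone fun z => rightHeight (heightExt D i j z) := fun x y hxy => by
    refine le_csInf ((nonempty_Ioo.2 zero_lt_one).image _) ?_
    rintro _ ⟨s, hs, rfl⟩
    exact ((T1.isHeight_ext h.down y).rightHeight_le hs).trans
      (antitone_heightExt_fst h.down s hxy)
  have hw : Antitone fun z => topWidth (heightExt D i j z) := by
    simp only [(topWidth_eq_rightHeight h.down hij _).1]
    refine fun x y hxy => le_csInf ((nonempty_Ioo.2 zero_lt_one).image _) ?_
    rintro _ ⟨s, hs, rfl⟩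
    exact ((T1.isHeight_ext h.down y).rightHeight_le hs).trans
      (antitone_heightExt_fst h.down s hxy)
  have eu := tendsto_nhds_unique (tendsto_sliceArea h.down hij hki hkj hall').2 hau
  have ew := tendsto_nhds_unique (tendsto_sliceArea_transpose h.down hij hki hkj hall').2 haw
  rw [boxVolume_eq h.down h.subset h.measurable hij]
  have hA := (antitone_sliceArea (i := i) (j := j) h.down).intervalIntegrable
    (μ := volume) (a := 0) (b := 1)
  have hint : ∫ z in (0 : ℝ)..1, (lam * sliceArea D i j z -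
      mu * (rightHeight (heightExt D i j z) + topWidth (heightExt D i j z))) ≤
      ∫ z in (0 : ℝ)..1, (c (sliceArea D i j z) * Slicing.len (heightExt D i j z) +
        c (sliceArea D j i z) * Slicing.len (heightExt D j i z)) / 2 := by
    refine intervalIntegral.integral_mono_on_of_le_Ioo zero_le_one
      ((hA.const_mul lam).sub ((hu.intervalIntegrable.add hw.intervalIntegrable).const_mul mu))
      ((I1.add I2).div_const 2) fun z hz => ?_
    have hM : ∀ p q : Fin 3, (T1.isHeight_ext (i := p) (j := q) h.down z).slice.Master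
        (Slicing.len (heightExt D p q z)) := fun p q =>
      (T1.isHeight_ext h.down z).master
        (lenGe_len (antitone_heightExt h.down z) (heightExt_mem D p q z))
    have hsym := symAdm_of_pair (hM i j) (hM j i) (swap_eq z)
      (topWidth_eq_rightHeight h.down hij z).1.symm (topWidth_eq_rightHeight h.down hij.symm z).1
    refine (hD _ (T1.sliceArea_between h ha hb hz) _ _ hsym).trans_eq ?_
    rw [swap_eq z]
    ring
  rw [intervalIntegral.integral_sub (hA.const_mul lam)
      ((hu.intervalIntegrable.add hw.intervalIntegrable).const_mul mu),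
    intervalIntegral.integral_const_mul, intervalIntegral.integral_const_mul,
    intervalIntegral.integral_add hu.intervalIntegrable hw.intervalIntegrable,
    intervalIntegral.integral_div, intervalIntegral.integral_add I1 I2, eu, ew] at hint
  nlinarith [mul_le_mul_of_nonneg_left hG hmu]

/-- A polynomial below the curved term of a band. -/
theorem poly_le_K {P : ℝ} (h0 : 0 ≤ P) (h1 : P ≤ 7 / 10) :
    1 - P ^ 2 / 6 - P ^ 4 / 40 - P ^ 6 / 56 ≤ ∫ x in (0 : ℝ)..1, Real.sqrt (1 - (P * x) ^ 2) := by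
  refine le_trans (le_of_eq ?_) (intervalIntegral.integral_mono_on zero_le_one
    (f := fun x => 1 - P ^ 2 / 2 * x ^ 2 - P ^ 4 / 8 * x ^ 4 - P ^ 6 / 8 * x ^ 6)
    (Continuous.intervalIntegrable (by fun_prop) _ _)
    (Continuous.intervalIntegrable (by fun_prop) _ _) fun x hx => ?_)
  · rw [intervalIntegral.integral_sub (Continuous.intervalIntegrable (by fun_prop) _ _)
        (Continuous.intervalIntegrable (by fun_prop) _ _),
      intervalIntegral.integral_sub (Continuous.intervalIntegrable (by fun_prop) _ _)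
        (Continuous.intervalIntegrable (by fun_prop) _ _),
      intervalIntegral.integral_sub (Continuous.intervalIntegrable (by fun_prop) _ _)
        (Continuous.intervalIntegrable (by fun_prop) _ _)]
    simp only [intervalIntegral.integral_const, intervalIntegral.integral_const_mul, integral_pow,
      smul_eq_mul]
    norm_num
    ring
  set y := (P * x) ^ 2 with hy
  have hy0 : 0 ≤ y := sq_nonneg _
  have hy1 : y ≤ 1 / 2 := by
    have : P * x ≤ 7 / 10 := by nlinarith [hx.1, hx.2]
    nlinarith [mul_nonneg h0 hx.1]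
  refine Real.le_sqrt_of_sq_le ?_
  rw [show 1 - P ^ 2 / 2 * x ^ 2 - P ^ 4 / 8 * x ^ 4 - P ^ 6 / 8 * x ^ 6 =
    1 - y / 2 - y ^ 2 / 8 - y ^ 3 / 8 by rw [hy]; ring]
  nlinarith [mul_nonneg (pow_nonneg hy0 3) (sub_nonneg.2 hy1), pow_nonneg hy0 3,
    mul_nonneg (pow_nonneg hy0 4) (sub_nonneg.2 hy1), pow_nonneg hy0 4, pow_nonneg hy0 5,
    mul_nonneg (pow_nonneg hy0 5) (sub_nonneg.2 hy1)]

end Vale.Agent.P232.Gap.KinkSplit
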